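import Vale.Agent.P076.H926.Defs

/-! # P076 / H709 : `StCNT` of `H926/Defs.lean` : counting of cubes (helper709) -/

set_option autoImplicit false

open MeasureTheory Complex Set Vale.Agent.P122.C2 Vale.Agent.P122.AN Vale.Agent.P076.NS Vale.Agent.P076.H879
  Vale.Agent.P076.H926
open scoped ENNReal NNReal FourierTransform RealInnerProductSpace

namespace Vale.Agent.P076.H709

theorem cB_apply (n : ℕ) (B : Fin 3 → ℤ) (i : Fin 3) : cB n B i = (2:ℝ) ^ (2 * n) * B i := by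
  fin_cases i <;> rfl

theorem dist_le_of_coord {x y : E3} {a b : ℝ} (hb : 0 ≤ b) (hab : 3 * a ^ 2 ≤ b ^ 2) (h : ∀ i, |x i - y i| ≤ a) : dist x y ≤ b := by
  rw [EuclideanSpace.dist_eq]
  refine Real.sqrt_le_iff.2 ⟨hb, ?_⟩
  rw [Fin.sum_univ_three]
  have e : ∀ i, dist (x i) (y i) ^ 2 ≤ a ^ 2 := by
    intro i
    rw [Real.dist_eq]
    exact pow_le_pow_left₀ (abs_nonneg _) (h i) 2
  linarith [e 0, e 1, e 2]

theorem card_all {k n : ℕ} {Y : Finset (Fin 3 → ℤ)} {γ : ℝ} (hk : 1 ≤ k) (hD : Dim2 k n Y γ) (hY : ∀ B ∈ Y, InQ k n B) :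
    (Y.card : ℝ) ≤ γ * 2 ^ (4 * k * n) := by
  set R : ℝ := 2 ^ (2 * k * n) with hR
  have hR0 : 0 < R := by positivity
  have hr : (2:ℝ) ^ (2 * n) ≤ R := by
    apply pow_le_pow_right₀ (by norm_num)
    nlinarith
  have h1 := hD R !₂[R / 2, R / 2, R / 2] hr le_rfl
  have e : Y.filter (fun B => dist (cB n B) !₂[R / 2, R / 2, R / 2] ≤ R) = Y := by
    refine Finset.filter_true_of_mem fun B hB => ?_
    refine dist_le_of_coord (a := R / 2) hR0.le (by nlinarith [sq_nonneg R]) fun i => ?_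
    have e1 : (!₂[R / 2, R / 2, R / 2] : E3) i = R / 2 := by fin_cases i <;> rfl
    rw [e1, cB_apply]
    obtain ⟨b1, b2⟩ := hY B hB i
    have c1 : (0:ℝ) ≤ B i := by exact_mod_cast b1
    have c2 : (B i : ℝ) ≤ 2 ^ (2 * (k - 1) * n) := by exact_mod_cast b2.le
    have e2 : (2:ℝ) ^ (2 * n) * 2 ^ (2 * (k - 1) * n) = R := by
      rw [hR, ← pow_add]
      congr 1
      obtain ⟨j, rfl⟩ : ∃ j, k = j + 1 := ⟨k - 1, by omega⟩
      rw [Nat.add_sub_cancel]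
      ring
    have p : (0:ℝ) < 2 ^ (2 * n) := by positivity
    have c3 : (2:ℝ) ^ (2 * n) * B i ≤ R := by
      rw [← e2]
      exact mul_le_mul_of_nonneg_left c2 p.le
    have c4 : 0 ≤ (2:ℝ) ^ (2 * n) * B i := by positivity
    rw [abs_le]
    constructor <;> linarith
  rw [e] at h1
  refine h1.trans (le_of_eq ?_)
  rw [hR, ← pow_mul]
  congr 2
  ring

theorem card_all' {k n : ℕ} {Y : Finset (Fin 3 → ℤ)} (hY : ∀ B ∈ Y, InQ k n B) : (Y.card : ℝ) ≤ 2 ^ (6 * k * n) := by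
  have hsub : Y ⊆ Fintype.piFinset fun _ : Fin 3 => Finset.Ico (0:ℤ) (2 ^ (2 * (k - 1) * n)) := by
    intro B hB
    rw [Fintype.mem_piFinset]
    intro i
    exact Finset.mem_Ico.2 (hY B hB i)
  have hc := Finset.card_le_card hsub
  rw [Fintype.card_piFinset, Fin.prod_univ_three] at hc
  simp only [Int.card_Ico, sub_zero] at hc
  have e : ((2:ℤ) ^ (2 * (k - 1) * n)).toNat = 2 ^ (2 * (k - 1) * n) := by
    have h : ((2:ℤ) ^ (2 * (k - 1) * n)) = ((2 ^ (2 * (k - 1) * n) : ℕ) : ℤ) := by push_cast; rfl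
    rw [h, Int.toNat_natCast]
  rw [e, ← pow_add, ← pow_add] at hc
  have h3 : (2:ℕ) ^ (2 * (k - 1) * n + 2 * (k - 1) * n + 2 * (k - 1) * n) ≤ 2 ^ (6 * k * n) := by
    apply pow_le_pow_right₀ (by norm_num)
    have : k - 1 ≤ k := Nat.sub_le k 1
    nlinarith
  exact_mod_cast hc.trans h3

theorem gam_ge {k n : ℕ} {Y : Finset (Fin 3 → ℤ)} {γ : ℝ} (hk : 1 ≤ k) (hD : Dim2 k n Y γ) (hY : Y.Nonempty) :
    (2:ℝ) ^ (-(4 * n : ℝ)) ≤ γ := by
  have h2n : (2:ℝ) ^ (2 * n) ≤ 2 ^ (2 * k * n) := by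
    apply pow_le_pow_right₀ (by norm_num)
    nlinarith
  obtain ⟨B, hB⟩ := hY
  have h1 := hD (2 ^ (2 * n)) (cB n B) le_rfl h2n
  have h2 : (1:ℝ) ≤ (Y.filter fun B' => dist (cB n B') (cB n B) ≤ 2 ^ (2 * n)).card := by
    have : 0 < (Y.filter fun B' => dist (cB n B') (cB n B) ≤ 2 ^ (2 * n)).card := by
      rw [Finset.card_pos]
      exact ⟨B, Finset.mem_filter.2 ⟨hB, by rw [dist_self]; positivity⟩⟩
    exact_mod_cast this
  have h3 : 1 ≤ γ * (2 ^ (2 * n)) ^ 2 := h2.trans h1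
  have e : (2:ℝ) ^ (-(4 * n : ℝ)) = (((2:ℝ) ^ (2 * n)) ^ 2)⁻¹ := by
    rw [Real.rpow_neg (by norm_num), ← pow_mul, ← Real.rpow_natCast]
    congr 2
    push_cast
    ring
  rw [e, inv_le_iff_one_le_mul₀ (by positivity)]
  linarith

/-- the cubes in a sup-ball -/
def W (n : ℕ) (Y : Finset (Fin 3 → ℤ)) (r : ℕ) (x0 : Nd) : Finset (Fin 3 → ℤ) :=
  Y.filter fun B => |2 ^ (2 * n) * B 2 - x0.T| ≤ 2 ^ r ∧ |2 ^ (2 * n) * B 0 - x0.o 0| ≤ 2 ^ r ∧
    |2 ^ (2 * n) * B 1 - x0.o 1| ≤ 2 ^ r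

theorem mem_W {n : ℕ} {Y : Finset (Fin 3 → ℤ)} {r : ℕ} {x0 : Nd} {B : Fin 3 → ℤ} : B ∈ W n Y r x0 ↔
    B ∈ Y ∧ |2 ^ (2 * n) * B 2 - x0.T| ≤ 2 ^ r ∧ |2 ^ (2 * n) * B 0 - x0.o 0| ≤ 2 ^ r ∧
      |2 ^ (2 * n) * B 1 - x0.o 1| ≤ 2 ^ r := by
  unfold W
  exact Finset.mem_filter

theorem img_le (n : ℕ) (Y : Finset (Fin 3 → ℤ)) (r : ℕ) (x0 : Nd) :
    ((Y.image (xB n)).filter fun x => |x.T - x0.T| ≤ 2 ^ r ∧ ∀ i, |x.o i - x0.o i| ≤ 2 ^ r).card ≤ (W n Y r x0).card := by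
  refine le_trans (Finset.card_le_card (t := (W n Y r x0).image (xB n)) ?_) Finset.card_image_le
  intro x hx
  obtain ⟨hx1, hx2, hx3⟩ := Finset.mem_filter.1 hx
  obtain ⟨B, hB, rfl⟩ := Finset.mem_image.1 hx1
  refine Finset.mem_image_of_mem _ (mem_W.2 ⟨hB, ?_, ?_, ?_⟩)
  · have := hx2
    unfold xB at this
    exact this
  · have := hx3 0
    unfold xB at this
    exact this
  · have := hx3 1
    unfold xB at this
    exact this

theorem two_int {n r : ℕ} (h1 : r < 2 * n) (a b : ℤ) (hab : |2 ^ (2 * n) * b - a| ≤ 2 ^ r) :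
    b ∈ Finset.Icc (a / 2 ^ (2 * n)) (a / 2 ^ (2 * n) + 1) := by
  have hlt : (2:ℤ) ^ r < 2 ^ (2 * n) := pow_lt_pow_right₀ (by norm_num) h1
  have hp : (0:ℤ) < 2 ^ (2 * n) := by positivity
  generalize (2:ℤ) ^ (2 * n) = p at *
  generalize (2:ℤ) ^ r = s at *
  rw [abs_le] at hab
  have h3 := Int.mul_ediv_add_emod a p
  have h4 := Int.emod_nonneg a hp.ne'
  have h5 := Int.emod_lt_of_pos a hp
  rw [Finset.mem_Icc]
  constructor
  · by_contra hc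
    push Not at hc
    have : b + 1 ≤ a / p := hc
    nlinarith
  · by_contra hc
    push Not at hc
    have : a / p + 2 ≤ b := by linarith
    nlinarith

theorem card_W_small {n : ℕ} {Y : Finset (Fin 3 → ℤ)} {r : ℕ} {x0 : Nd} (h1 : r < 2 * n) : (W n Y r x0).card ≤ 8 := by
  set q : Fin 3 → ℤ := ![x0.o 0 / 2 ^ (2 * n), x0.o 1 / 2 ^ (2 * n), x0.T / 2 ^ (2 * n)] with hq
  have hsub : W n Y r x0 ⊆ Fintype.piFinset fun i : Fin 3 => Finset.Icc (q i) (q i + 1) := by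
    intro B hB
    obtain ⟨-, w2, w0, w1⟩ := mem_W.1 hB
    rw [Fintype.mem_piFinset]
    intro i
    fin_cases i
    · exact two_int h1 _ _ w0
    · exact two_int h1 _ _ w1
    · exact two_int h1 _ _ w2
  have hc := Finset.card_le_card hsub
  rw [Fintype.card_piFinset, Fin.prod_univ_three] at hc
  simp only [Int.card_Icc] at hc
  have e : ∀ a : ℤ, (a + 1 + 1 - a).toNat = 2 := by intro a; omega
  rw [e, e, e] at hc
  exact hc

theorem card_W_mid {k n : ℕ} {Y : Finset (Fin 3 → ℤ)} {γ : ℝ} {r : ℕ} {x0 : Nd} (hD : Dim2 k n Y γ) (h1 : 2 * n ≤ r)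
    (h2 : r < 2 * k * n) : ((W n Y r x0).card : ℝ) ≤ γ * (4 * 2 ^ (2 * r)) := by
  set x1 : E3 := !₂[(x0.o 0 : ℝ), (x0.o 1 : ℝ), (x0.T : ℝ)] with hx1
  have h3 : (2:ℝ) ^ (2 * n) ≤ 2 ^ (r + 1) := pow_le_pow_right₀ (by norm_num) (by omega)
  have h4 : (2:ℝ) ^ (r + 1) ≤ 2 ^ (2 * k * n) := pow_le_pow_right₀ (by norm_num) (by omega)
  have h5 := hD (2 ^ (r + 1)) x1 h3 h4
  have hsub : W n Y r x0 ⊆ Y.filter fun B => dist (cB n B) x1 ≤ 2 ^ (r + 1) := by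
    intro B hB
    obtain ⟨w, w2, w0, w1⟩ := mem_W.1 hB
    refine Finset.mem_filter.2 ⟨w, dist_le_of_coord (a := 2 ^ r) (by positivity) ?_ ?_⟩
    · rw [pow_succ (2:ℝ) r]
      nlinarith [sq_nonneg ((2:ℝ) ^ r)]
    · have cst : ∀ a b : ℤ, |2 ^ (2 * n) * b - a| ≤ 2 ^ r → |(2:ℝ) ^ (2 * n) * b - a| ≤ 2 ^ r := by
        intro a b h
        exact_mod_cast h
      intro i
      rw [cB_apply]
      fin_cases i
      · exact cst _ _ w0
      · exact cst _ _ w1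
      · exact cst _ _ w2
  have hc : ((W n Y r x0).card : ℝ) ≤ γ * (2 ^ (r + 1)) ^ 2 := le_trans (by exact_mod_cast Finset.card_le_card hsub) h5
  have e : ((2:ℝ) ^ (r + 1)) ^ 2 = 4 * 2 ^ (2 * r) := by
    rw [← pow_mul, show (r + 1) * 2 = 2 * r + 2 by ring, pow_add]
    norm_num
    ring
  rwa [e] at hc

theorem cnt : StCNT := by
  intro k n Y γ hk hγ hD hY
  have hall := card_all hk hD hY
  refine ⟨hall, card_all' hY, gam_ge hk hD, ?_⟩
  intro r x0 hr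
  have himg : _ ≤ ((W n Y r x0).card : ℝ) := Nat.cast_le.2 (img_le n Y r x0)
  refine le_trans himg ?_
  have p2r : (1:ℝ) ≤ 2 ^ (2 * r) := one_le_pow₀ (by norm_num)
  have pg : 0 < γ * 2 ^ (2 * r) := mul_pos hγ (by positivity)
  rcases lt_or_ge r (2 * n) with h1 | h1
  · have h8 : ((W n Y r x0).card : ℝ) ≤ 8 := by exact_mod_cast card_W_small h1
    linarith
  · rcases eq_or_lt_of_le hr with h2 | h2
    · have hWY : ((W n Y r x0).card : ℝ) ≤ Y.card := by exact_mod_cast Finset.card_le_card (Finset.filter_subset _ _)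
      have e : (2:ℝ) ^ (4 * k * n) = 2 ^ (2 * r) := by
        congr 1
        rw [h2]
        ring
      rw [e] at hall
      linarith
    · have := card_W_mid (x0 := x0) hD h1 h2
      linarith

end Vale.Agent.P076.H709
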