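import Vale.Agent.P076.H926.Defs

/-! # P076 / H709 : `StGLOB` of `H926/Defs.lean` : translations by `R ℤ³`, sum of the local masses (helper709) -/

set_option autoImplicit false

open MeasureTheory Complex Set Vale.Agent.P122.C2 Vale.Agent.P122.AN Vale.Agent.P076.NS Vale.Agent.P076.H879
  Vale.Agent.P076.H926
open scoped ENNReal NNReal FourierTransform RealInnerProductSpace

namespace Vale.Agent.P076.H709

/-- the translation vector `R m` -/
noncomputable def pv (k n : ℕ) (m : Fin 3 → ℤ) : E3 :=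
  !₂[(2:ℝ) ^ (2 * k * n) * m 0, (2:ℝ) ^ (2 * k * n) * m 1, (2:ℝ) ^ (2 * k * n) * m 2]

/-- modulated pieces -/
noncomputable def gm (p : E3) (g : Z2 → E3 → ℂ) (θ : Z2) (ξ : E3) : ℂ := Real.fourierChar ⟪ξ, p⟫ • g θ ξ

theorem gm_ne {p : E3} {g : Z2 → E3 → ℂ} {θ : Z2} {ξ : E3} (h : gm p g θ ξ ≠ 0) : g θ ξ ≠ 0 := by
  intro h0
  exact h (by unfold gm; rw [h0, smul_zero])

theorem integrable_gm {p : E3} {g : Z2 → E3 → ℂ} {θ : Z2} (h : Integrable (g θ)) : Integrable (gm p g θ) := by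
  have hc : Continuous fun ξ : E3 => ((Real.fourierChar ⟪ξ, p⟫ : Circle) : ℂ) := by
    fun_prop
  have := h.bdd_mul (c := 1) hc.aestronglyMeasurable (Filter.Eventually.of_forall fun ξ => (Circle.norm_coe _).le)
  refine this.congr (Filter.Eventually.of_forall fun ξ => ?_)
  rfl

theorem fi_gm (p : E3) (g : Z2 → E3 → ℂ) (θ : Z2) (z : E3) : 𝓕⁻ (gm p g θ) z = 𝓕⁻ (g θ) (z + p) := by
  rw [Real.fourierInv_eq, Real.fourierInv_eq]
  refine integral_congr_ae (Filter.Eventually.of_forall fun ξ => ?_)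
  show Real.fourierChar ⟪ξ, z⟫ • (Real.fourierChar ⟪ξ, p⟫ • g θ ξ) = Real.fourierChar ⟪ξ, z + p⟫ • g θ ξ
  rw [inner_add_right, AddChar.map_add_eq_mul, smul_smul]

theorem par_gm {C0 : ℝ} {k n : ℕ} {g : Z2 → E3 → ℂ} (p : E3) (h : Par C0 k n g) : Par C0 k n (gm p g) where
  int θ := integrable_gm (h.int θ)
  cell θ ξ hξ := h.cell θ ξ (gm_ne hξ)
  dom θ ξ hξ := h.dom θ ξ (gm_ne hξ)
  slope θ ξ hξ := h.slope θ ξ (gm_ne hξ)
  near θ ξ hξ := h.near θ ξ (gm_ne hξ)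

theorem sF_gm (p : E3) (g : Z2 → E3 → ℂ) (G : Finset Z2) (z : E3) : sF (gm p g) G z = sF g G (z + p) := by
  unfold sF
  exact Finset.sum_congr rfl fun θ _ => fi_gm p g θ z

/-- shifted cube -/
def shB (k n : ℕ) (m B : Fin 3 → ℤ) : Fin 3 → ℤ := fun i => B i - 2 ^ (2 * (k - 1) * n) * m i

/-- shifted back -/
def unB (k n : ℕ) (m B : Fin 3 → ℤ) : Fin 3 → ℤ := fun i => B i + 2 ^ (2 * (k - 1) * n) * m i

theorem un_sh (k n : ℕ) (m B : Fin 3 → ℤ) : unB k n m (shB k n m B) = B := by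
  funext i
  unfold unB shB
  ring

theorem shB_inj (k n : ℕ) (m : Fin 3 → ℤ) : Function.Injective (shB k n m) := fun B B' h => by
  rw [← un_sh k n m B, h, un_sh]

theorem pw_split {k : ℕ} (hk : 1 ≤ k) (n : ℕ) : (2:ℝ) ^ (2 * n) * 2 ^ (2 * (k - 1) * n) = 2 ^ (2 * k * n) := by
  rw [← pow_add]
  congr 1
  obtain ⟨j, rfl⟩ : ∃ j, k = j + 1 := ⟨k - 1, by omega⟩
  rw [Nat.add_sub_cancel]
  ring

theorem cB_sh {k : ℕ} (hk : 1 ≤ k) (n : ℕ) (m B : Fin 3 → ℤ) : cB n (shB k n m B) = cB n B - pv k n m := by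
  have e := pw_split hk n
  ext i
  fin_cases i <;>
  · simp only [cB, pv, shB, PiLp.sub_apply]
    simp
    rw [← e]
    ring

theorem wB_sh {k : ℕ} (hk : 1 ≤ k) (M n : ℕ) (m B : Fin 3 → ℤ) (z : E3) :
    wB M n (shB k n m B) z = wB M n B (z + pv k n m) := by
  unfold wB
  rw [cB_sh hk]
  congr 1
  abel

theorem b6_sh {k : ℕ} (hk : 1 ≤ k) (M n : ℕ) (m B : Fin 3 → ℤ) (g : Z2 → E3 → ℂ) (G : Finset Z2) :
    b6 M n (shB k n m B) (sF (gm (pv k n m) g) G) = b6 M n B (sF g G) := by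
  unfold b6
  congr 1
  rw [← lintegral_add_right_eq_self (fun z => ‖sF g G z‖ₑ ^ 6 * wB M n B z) (pv k n m)]
  refine lintegral_congr fun z => ?_
  rw [sF_gm, wB_sh hk]

theorem u1_sh {k : ℕ} (hk : 1 ≤ k) (M n : ℕ) (m B : Fin 3 → ℤ) (g : Z2 → E3 → ℂ) (θ : Z2) :
    u1 M k n (gm (pv k n m) g) θ (shB k n m B) = u1 M k n g θ B := by
  unfold u1
  congr 1
  rw [← lintegral_add_right_eq_self (fun z => ‖𝓕⁻ (g θ) z‖ₑ ^ 2 *
    wg M 0 (2 ^ (k * n)) (2 ^ (k * n)) (2 ^ (2 * k * n)) (slp n k θ) (z - cB n B)) (pv k n m)]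
  refine lintegral_congr fun z => ?_
  rw [fi_gm, cB_sh hk]
  congr 2
  abel

theorem uF_sh {k : ℕ} (hk : 1 ≤ k) (M n : ℕ) (m B : Fin 3 → ℤ) (g : Z2 → E3 → ℂ) (G : Finset Z2) :
    uF M k n (gm (pv k n m) g) G (shB k n m B) = uF M k n g G B := by
  unfold uF
  exact Finset.sum_congr rfl fun θ _ => u1_sh hk M n m B g θ

/-- the `R`-cube of `B` -/
def mB (k n : ℕ) (B : Fin 3 → ℤ) : Fin 3 → ℤ := fun i => B i / 2 ^ (2 * (k - 1) * n)

theorem inQ_sh (k n : ℕ) (B : Fin 3 → ℤ) : InQ k n (shB k n (mB k n B) B) := by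
  intro i
  unfold shB mB
  have h : (0:ℤ) < 2 ^ (2 * (k - 1) * n) := by positivity
  have h1 := Int.emod_nonneg (B i) h.ne'
  have h2 := Int.emod_lt_of_pos (B i) h
  have h3 := Int.mul_ediv_add_emod (B i) (2 ^ (2 * (k - 1) * n))
  constructor <;> linarith

/-- the local masses -/
theorem msl_gm (k n : ℕ) (p : E3) (g : Z2 → E3 → ℂ) : msl k n (gm p g) =
    ENNReal.ofReal (((2:ℝ) ^ (2 * k * n))⁻¹) * ∑ θ ∈ desc k n 0 0, ∫⁻ y, ‖𝓕⁻ (g θ) y‖ₑ ^ 2 *
      wg 6 0 (2 ^ (2 * k * n)) (2 ^ (2 * k * n)) (2 ^ (2 * k * n)) 0 (y - p) := by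
  unfold msl m1
  congr 1
  refine Finset.sum_congr rfl fun θ _ => ?_
  rw [← lintegral_add_right_eq_self (fun y => ‖𝓕⁻ (g θ) y‖ₑ ^ 2 *
    wg 6 0 (2 ^ (2 * k * n)) (2 ^ (2 * k * n)) (2 ^ (2 * k * n)) 0 (y - p)) p]
  refine lintegral_congr fun y => ?_
  rw [fi_gm, add_sub_cancel_right]

/-- sum of the weights of the `R`-cubes -/
theorem exists_sum_wg : ∃ C : ℝ, 1 ≤ C ∧ ∀ (k n : ℕ) (U : Finset (Fin 3 → ℤ)) (y : E3),
    ∑ m ∈ U, wg 6 0 (2 ^ (2 * k * n)) (2 ^ (2 * k * n)) (2 ^ (2 * k * n)) 0 (y - pv k n m) ≤ ENNReal.ofReal C := by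
  obtain ⟨C, hC, H⟩ := Vale.Agent.P122.W840.exists_sum_int
  refine ⟨(C + 1) ^ 3, one_le_pow₀ (by linarith), ?_⟩
  intro k n U y
  set R : ℝ := 2 ^ (2 * k * n) with hR
  have hR0 : 0 < R := by positivity
  set f : Fin 3 → ℤ → ℝ := fun i a => ((1 + |y i / R - a|) ^ (3 / 2 : ℝ))⁻¹ with hf
  have hf0 : ∀ i a, 0 ≤ f i a := fun i a => by positivity
  have h1 : ∀ m : Fin 3 → ℤ, wg 6 0 R R R 0 (y - pv k n m) ≤ ENNReal.ofReal (∏ i, f i (m i)) := by
    intro m
    unfold wg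
    refine ENNReal.ofReal_le_ofReal ?_
    rw [gau_ball]
    have e : ∀ i : Fin 3, |(y - pv k n m) i| / R = |y i / R - m i| := by
      intro i
      have e1 : (y - pv k n m) i = R * (y i / R - m i) := by
        have e2 : (y - pv k n m) i = y i - R * m i := by
          fin_cases i <;> simp [pv, hR]
        rw [e2, mul_sub, mul_div_cancel₀ _ hR0.ne']
      rw [e1, abs_mul, abs_of_pos hR0, mul_div_cancel_left₀ _ hR0.ne']
    have e3 : l1 (y - pv k n m) / R = |y 0 / R - m 0| + |y 1 / R - m 1| + |y 2 / R - m 2| := by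
      unfold l1
      rw [add_div, add_div, e 0, e 1, e 2]
    rw [e3, Fin.prod_univ_three, hf]
    simp only
    set a := |y 0 / R - (m 0 : ℝ)| with ha
    set b := |y 1 / R - (m 1 : ℝ)| with hb
    set c := |y 2 / R - (m 2 : ℝ)| with hc
    have a0 : 0 ≤ a := abs_nonneg _
    have b0 : 0 ≤ b := abs_nonneg _
    have c0 : 0 ≤ c := abs_nonneg _
    rw [← mul_inv, ← mul_inv]
    refine inv_anti₀ (by positivity) ?_
    have p : ∀ t : ℝ, 0 ≤ t → (1 + t) ^ (3 / 2 : ℝ) ≤ (1 + t) ^ 2 := by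
      intro t ht
      rw [← Real.rpow_natCast (1 + t) 2]
      exact Real.rpow_le_rpow_of_exponent_le (by linarith) (by norm_num)
    calc (1 + a) ^ (3 / 2 : ℝ) * (1 + b) ^ (3 / 2 : ℝ) * (1 + c) ^ (3 / 2 : ℝ)
        ≤ (1 + a) ^ 2 * (1 + b) ^ 2 * (1 + c) ^ 2 := by
          gcongr
          · exact p a a0
          · exact p b b0
          · exact p c c0
      _ ≤ (1 + (a + b + c)) ^ 2 * (1 + (a + b + c)) ^ 2 * (1 + (a + b + c)) ^ 2 := by
          gcongr <;> linarith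
      _ = (1 + (a + b + c)) ^ 6 := by ring
  have h2 : ∑ m ∈ U, ∏ i, f i (m i) ≤ C ^ 3 := by
    calc ∑ m ∈ U, ∏ i, f i (m i) ≤ ∑ m ∈ Fintype.piFinset fun i : Fin 3 => U.image fun m => m i, ∏ i, f i (m i) := by
          refine Finset.sum_le_sum_of_subset_of_nonneg ?_ fun m _ _ => Finset.prod_nonneg fun i _ => hf0 i _
          intro m hm
          rw [Fintype.mem_piFinset]
          exact fun i => Finset.mem_image_of_mem _ hm
      _ = ∏ i : Fin 3, ∑ a ∈ U.image fun m => m i, f i a := (Finset.prod_univ_sum _ _).symm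
      _ ≤ ∏ _i : Fin 3, C := by
          refine Finset.prod_le_prod (fun i _ => Finset.sum_nonneg fun a _ => hf0 i a) fun i _ => ?_
          exact H (y i / R) _
      _ = C ^ 3 := by simp
  calc ∑ m ∈ U, wg 6 0 R R R 0 (y - pv k n m) ≤ ∑ m ∈ U, ENNReal.ofReal (∏ i, f i (m i)) := Finset.sum_le_sum fun m _ => h1 m
    _ = ENNReal.ofReal (∑ m ∈ U, ∏ i, f i (m i)) :=
        (ENNReal.ofReal_sum_of_nonneg fun m _ => Finset.prod_nonneg fun i _ => hf0 i _).symm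
    _ ≤ ENNReal.ofReal ((C + 1) ^ 3) := ENNReal.ofReal_le_ofReal (h2.trans (pow_le_pow_left₀ hC (by linarith) 3))

/-- the local masses sum up to the mass -/
theorem exists_sum_msl : ∃ C : ℝ, 1 ≤ C ∧ ∀ (k n : ℕ) (g : Z2 → E3 → ℂ), (∀ θ, Integrable (g θ)) →
    ∀ U : Finset (Fin 3 → ℤ), ∑ m ∈ U, msl k n (gm (pv k n m) g) ≤ ENNReal.ofReal C * ms k n g := by
  obtain ⟨C, hC, H⟩ := exists_sum_wg
  refine ⟨C, hC, ?_⟩
  intro k n g hg U
  have hmeas : ∀ θ, Measurable fun y => ‖𝓕⁻ (g θ) y‖ₑ ^ 2 := fun θ =>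
    (Vale.Agent.P122.AN275.continuous_inv (hg θ)).measurable.enorm.pow_const 2
  simp only [msl_gm]
  rw [← Finset.mul_sum, Finset.sum_comm]
  unfold ms
  rw [mul_left_comm (ENNReal.ofReal C)]
  refine mul_le_mul' le_rfl ?_
  rw [Finset.mul_sum]
  refine Finset.sum_le_sum fun θ _ => ?_
  have hm : ∀ m ∈ U, Measurable fun y => ‖𝓕⁻ (g θ) y‖ₑ ^ 2 *
      wg 6 0 (2 ^ (2 * k * n)) (2 ^ (2 * k * n)) (2 ^ (2 * k * n)) 0 (y - pv k n m) := fun m _ =>
    (hmeas θ).mul (Vale.Agent.P122.AN275.measurable_wg_sub _ _ _ _ _ _ _)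
  rw [← lintegral_finsetSum U hm, ← lintegral_const_mul' _ _ ENNReal.ofReal_ne_top]
  refine lintegral_mono fun y => ?_
  show ∑ m ∈ U, ‖𝓕⁻ (g θ) y‖ₑ ^ 2 * _ ≤ _
  rw [← Finset.mul_sum, mul_comm (ENNReal.ofReal C)]
  exact mul_le_mul' le_rfl (H k n U y)

theorem glob : StGLOB := by
  obtain ⟨C, hC, H⟩ := exists_sum_msl
  refine ⟨C, hC, ?_⟩
  intro br c1 C0 c M k n j N A hk hA hL g Y G γ β b hH hbr
  classical
  unfold Est
  set U := Y.image (mB k n) with hU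
  have hcard : (Y.card : ℝ) = ∑ m ∈ U, ((Y.filter fun B => mB k n B = m).card : ℝ) := by
    rw [Finset.card_eq_sum_card_image (mB k n) Y]
    push_cast
    rfl
  set X := ENNReal.ofReal (A * b ^ c1 * γ ^ (2 / 3 : ℝ) * 2 ^ (4 / 3 * (k * n : ℝ))) with hX
  have hloc : ∀ m ∈ U, ENNReal.ofReal (β ^ 2 * ((Y.filter fun B => mB k n B = m).card : ℝ)) ≤
      X * msl k n (gm (pv k n m) g) := by
    intro m _
    set Ym := Y.filter fun B => mB k n B = m with hYm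
    have hYY : ∀ B ∈ Ym, B ∈ Y ∧ mB k n B = m := fun B hB => Finset.mem_filter.1 hB
    have hc : (Ym.image (shB k n m)).card = Ym.card := Finset.card_image_of_injective _ (shB_inj k n m)
    have hall : ∀ {p : (Fin 3 → ℤ) → Prop}, (∀ B ∈ Ym, p (shB k n m B)) → ∀ B ∈ Ym.image (shB k n m), p B := by
      intro p hp B hB
      obtain ⟨B', hB', rfl⟩ := Finset.mem_image.1 hB
      exact hp B' hB'
    have key := hL (gm (pv k n m) g) (Ym.image (shB k n m)) (fun B => G (unB k n m B)) γ β b ?_ ?_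
    · rw [hc] at key
      exact key
    · refine ⟨par_gm _ hH.par, hH.γ0, ?_, hH.β0, hH.b0, hH.b1, ?_, ?_, ?_, ?_, ?_⟩
      · intro r p h1 h2
        refine le_trans ?_ (hH.dim r (p + pv k n m) h1 h2)
        have : ((Ym.image (shB k n m)).filter fun B => dist (cB n B) p ≤ r) ⊆
            (Y.filter fun B => dist (cB n B) (p + pv k n m) ≤ r).image (shB k n m) := by
          intro B hB
          obtain ⟨hB1, hB2⟩ := Finset.mem_filter.1 hB
          obtain ⟨B', hB', rfl⟩ := Finset.mem_image.1 hB1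
          refine Finset.mem_image_of_mem _ (Finset.mem_filter.2 ⟨(hYY B' hB').1, ?_⟩)
          rw [cB_sh hk] at hB2
          rw [dist_eq_norm] at hB2 ⊢
          rw [show cB n B' - (p + pv k n m) = cB n B' - pv k n m - p by abel]
          exact hB2
        exact_mod_cast (Finset.card_le_card this).trans Finset.card_image_le
      · exact hall fun B hB => by rw [un_sh]; exact hH.sub B (hYY B hB).1
      · exact hall fun B hB => by rw [un_sh]; exact hH.uni B (hYY B hB).1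
      · exact hall fun B hB => by rw [un_sh, b6_sh hk]; exact hH.amp B (hYY B hB).1
      · rcases hH.enr with h | h
        · exact Or.inl h
        · right
          exact hall fun B hB => by rw [un_sh, uF_sh hk]; exact h B (hYY B hB).1
      · exact hall fun B hB => by rw [← (hYY B hB).2]; exact inQ_sh k n B
    · intro hb
      exact hall fun B hB => by
        rw [un_sh]
        intro S hS hS'
        rw [b6_sh hk]
        exact hbr hb B (hYY B hB).1 S hS hS'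
  calc ENNReal.ofReal (β ^ 2 * Y.card) = ∑ m ∈ U, ENNReal.ofReal (β ^ 2 * ((Y.filter fun B => mB k n B = m).card : ℝ)) := by
        rw [← ENNReal.ofReal_sum_of_nonneg fun m _ => by positivity, ← Finset.mul_sum, ← hcard]
    _ ≤ ∑ m ∈ U, X * msl k n (gm (pv k n m) g) := Finset.sum_le_sum hloc
    _ = X * ∑ m ∈ U, msl k n (gm (pv k n m) g) := (Finset.mul_sum _ _ _).symm
    _ ≤ X * (ENNReal.ofReal C * ms k n g) := mul_le_mul' le_rfl (H k n g hH.par.int U)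
    _ = ENNReal.ofReal (C * A * b ^ c1 * γ ^ (2 / 3 : ℝ) * 2 ^ (4 / 3 * (k * n : ℝ))) * ms k n g := by
        rw [← mul_assoc, hX, mul_comm (ENNReal.ofReal _) (ENNReal.ofReal C), ← ENNReal.ofReal_mul (by linarith)]
        congr 2
        ring

end Vale.Agent.P076.H709
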